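import Vale.Agent.P028U.Top
import Vale.Agent.P028.Cell

/-! P028U module CELL: second moment of a cell, for every shift and every size of `q`. -/

namespace Vale.Agent.P028U

open Finset MeasureTheory Vale.Agent.P028

theorem cell_boundU :
    ∃ C t0 : ℝ, ∀ (K γ : ℝ) (ψ : ℕ → ℝ) (t : ℝ) (S : Finset ℕ) (A : ℤ) (B : ℕ),
      t0 ≤ t → (∀ q, 0 ≤ ψ q) → IsCell zeta0 K t S ψ → IsApprox γ (Real.exp (t / 2)) A B →
      ∫ x in Set.Ico (0 : ℝ) 1, (∑ q ∈ S, fq γ ψ A B q x) ^ 2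
        ≤ C * (msum (mu ψ) S + msum (mu ψ) S ^ 2) := by
  obtain ⟨Ct, tt, hCt⟩ := top_boundU
  obtain ⟨C, t0, h⟩ := cell_from Ct
  exact ⟨C, max tt t0, fun K γ ψ t S A B ht hψ hS hAB =>
    h K γ ψ t S A B ((le_max_right _ _).trans ht) hψ hS hAB
      (hCt K γ ψ t S A B ((le_max_left _ _).trans ht) hψ hS hAB)⟩

end Vale.Agent.P028U
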