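import Vale.Agent.P028U.Cell
import Vale.Agent.P028X.Main

/-! P028U module MAIN: the extra-divergence criterion for every shift.

In a slice `8 ^ k ≤ log q < 8 ^ (k+1)` the cells are weighted by `(position) ^ (-(1+δ))` and only the
heaviest one is kept. Each cell costs nothing (`cell_boundU`), for every shift and every size of `q`. -/

namespace Vale.Agent.P028U

open Finset MeasureTheory Filter Topology
open Vale.Agent.P028
open Vale.Agent.P028.MainAux (cls scale cls_spec exists_block pairs_bound exists_residue sq_integral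
  exists_approx one_le_scale)
open Vale.Agent.P028X (wD lossD slice mTop grp slice_far grp_spec select mu_nonneg_X wD_nonneg
  one_le_lossD lossD_arg one_le_log_three not_summable_good)

/-- The position of the class of `q` below the top class of its slice. -/
noncomputable def pos (ψ : ℕ → ℝ) (q : ℕ) : ℕ := mTop (slice q) - cls ψ q + 2

/-- The weight of a position. -/
noncomputable def posW (δ : ℝ) (n : ℕ) : ℝ := (n : ℝ) ^ (-(1 + δ))

/-- The position is at most a multiple of the doubly logarithmic loss. -/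
lemma pos_spec :
    ∃ C : ℝ, 1 ≤ C ∧ ∀ (ψ : ℕ → ℝ) (q : ℕ), 1 ≤ Real.log q → 1 ≤ -Real.log (ψ q) →
      -Real.log (ψ q) ≤ 2 * Real.log q →
      cls ψ q ≤ mTop (slice q) ∧
        (pos ψ q : ℝ) ≤ C * Real.log (3 + Real.log q / max 1 (-Real.log (ψ q))) := by
  obtain ⟨C, hC, h⟩ := grp_spec
  refine ⟨2 * C, by linarith, fun ψ q hq hL hLq => ?_⟩
  obtain ⟨h1, h2⟩ := h ψ q hq hL hLq
  refine ⟨h1, ?_⟩
  have h3 : pos ψ q ≤ 2 ^ (grp ψ q + 1) := (Nat.lt_pow_succ_log_self one_lt_two _).le
  calc (pos ψ q : ℝ) ≤ ((2 ^ (grp ψ q + 1) : ℕ) : ℝ) := by exact_mod_cast h3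
    _ = 2 * (2 : ℝ) ^ grp ψ q := by push_cast; ring
    _ ≤ _ := by linarith

/-- The criterion below an absolute threshold `exp (-T)`. -/
lemma extraU_core :
    ∃ T : ℝ, 1 ≤ T ∧ ∀ (γ δ : ℝ) (ψ : ℕ → ℝ), 0 < δ → (∀ q, 0 ≤ ψ q) →
      (∀ q, ψ q ≤ Real.exp (-T)) → ¬ Summable (wD (1 + δ) ψ) →
      ∀ᵐ x : ℝ, {q : ℕ | 0 < q ∧ distInt ((q : ℝ) * x - γ) < ψ q}.Infinite := by
  classical
  obtain ⟨C1, t0, hcell⟩ := cell_boundU
  obtain ⟨C2, q0, hcross⟩ := cross_bound
  obtain ⟨C3, hfirst⟩ := integral_fq_interval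
  obtain ⟨C4, hdivb⟩ := card_divisors_le (1 / 4) (by norm_num)
  obtain ⟨C0, hC0, hpos⟩ := pos_spec
  refine ⟨max 1 ((1 + zeta0) * t0), le_max_left _ _, fun γ δ ψ hδ hψ hb hdiv => ?_⟩
  have hδ' : (0 : ℝ) ≤ 1 + δ := by linarith
  have hz : (0 : ℝ) < 1 + zeta0 := by norm_num [zeta0]
  have hb1 : ∀ q, ψ q ≤ Real.exp (-1) := fun q =>
    (hb q).trans (Real.exp_le_exp.2 (neg_le_neg (le_max_left _ _)))
  have hhalf : ∀ q, ψ q ≤ 1 / 2 := fun q => (hb1 q).trans (by
    rw [Real.exp_neg, one_div]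
    exact inv_anti₀ two_pos (by linarith [Real.add_one_le_exp (1 : ℝ)]))
  obtain ⟨i, hi⟩ := exists_residue (wD (1 + δ) ψ) _
    (not_summable_good hδ' ψ hψ hdiv (max 3 q0)) slice 3 (by norm_num)
  set P : Set ℕ := {q | q ∈ MainAux.Good ψ (max 3 q0) ∧ slice q % 3 = i} with hP
  have hgood : ∀ q ∈ P, 3 ≤ q ∧ q0 ≤ q ∧ 0 < ψ q ∧ 1 ≤ Real.log q ∧
      max 1 ((1 + zeta0) * t0) ≤ -Real.log (ψ q) ∧
      -Real.log (ψ q) ≤ 2 * Real.log q := by
    rintro q ⟨⟨hqq, hq2⟩, -⟩
    have h3 : 3 ≤ q := (le_max_left _ _).trans hqq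
    have hqR : (3 : ℝ) ≤ q := by exact_mod_cast h3
    have hp : 0 < ψ q := lt_of_lt_of_le (by positivity) hq2
    have hlq : 1 ≤ Real.log q :=
      one_le_log_three.trans (Real.log_le_log (by norm_num) hqR)
    have hL := Real.log_le_log hp (hb q)
    rw [Real.log_exp] at hL
    have hl2 := Real.log_le_log (by positivity) hq2
    rw [Real.log_inv, Real.log_pow] at hl2
    push_cast at hl2
    exact ⟨h3, (le_max_right _ _).trans hqq, hp, hlq, by linarith, by linarith⟩
  have hL1 : ∀ q ∈ P, 1 ≤ -Real.log (ψ q) := fun q hq =>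
    (le_max_left _ _).trans (hgood q hq).2.2.2.2.1
  have hclsT : ∀ q ∈ P, cls ψ q ≤ mTop (slice q) := fun q hq => by
    obtain ⟨-, -, -, hlq, -, hLq⟩ := hgood q hq
    exact (hpos ψ q hlq (hL1 q hq) hLq).1
  choose ab hab using fun m => exists_approx γ (scale m) (le_trans zero_le_one (one_le_scale m))
  set f : ℕ → ℝ → ℝ := fun q => fq γ ψ (ab (cls ψ q)).1 (ab (cls ψ q)).2 q with hf
  have hfn : ∀ q x, 0 ≤ f q x := fun q x => fq_nonneg γ ψ _ _ q x
  have hμ0 : ∀ q, 0 ≤ mu ψ q := mu_nonneg_X hψ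
  -- the summand against the weights
  have hd0 : ∀ n, 0 ≤ posW δ n := fun n => Real.rpow_nonneg (Nat.cast_nonneg n) _
  have hsum : Summable (posW δ) := Real.summable_nat_rpow.2 (by linarith)
  set G := ∑' n : ℕ, posW δ n with hGdef
  have hG : ∀ J : Finset ℕ, ∑ n ∈ J, posW δ n ≤ G := fun J =>
    hsum.sum_le_tsum J fun n _ => hd0 n
  have hG0 : 0 < G := lt_of_lt_of_le (by simp [posW])
    ((Finset.single_le_sum (fun n _ => hd0 n) (Finset.mem_singleton_self 1)).trans (hG {1}))
  set D := C0 ^ (1 + δ) with hD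
  have hD0 : 0 < D := by positivity
  have hwv : ∀ q ∈ P, wD (1 + δ) ψ q ≤ D * (mu ψ q * posW δ (pos ψ q)) := by
    intro q hq
    obtain ⟨-, -, -, hlq, -, hLq⟩ := hgood q hq
    have hR := (hpos ψ q hlq (hL1 q hq) hLq).2
    set R := Real.log (3 + Real.log q / max 1 (-Real.log (ψ q))) with hRdef
    have hR0 : 0 < R := lt_of_lt_of_le one_pos
      (one_le_log_three.trans (Real.log_le_log (by norm_num) (lossD_arg q ψ)))
    have hp0 : (0 : ℝ) < (pos ψ q : ℝ) := by
      have : 0 < pos ψ q := Nat.succ_pos _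
      exact_mod_cast this
    have h1 : (pos ψ q : ℝ) ^ (1 + δ) ≤ D * R ^ (1 + δ) := by
      rw [hD, ← Real.mul_rpow (by linarith) hR0.le]
      exact Real.rpow_le_rpow hp0.le hR hδ'
    rw [wD, lossD, ← hRdef, posW, Real.rpow_neg hp0.le, mul_left_comm, div_eq_mul_inv]
    refine mul_le_mul_of_nonneg_left ?_ (hμ0 q)
    rw [← div_eq_mul_inv, le_div_iff₀ (by positivity), inv_mul_le_iff₀ (by positivity),
      mul_comm _ D]
    exact h1
  -- the blocks
  choose T hT hTsum using exists_block (wD (1 + δ) ψ) P (wD_nonneg hδ' hψ) hi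
  choose T' hT'sub hT'one hT'sum using
    fun k => select (T k) slice (pos ψ) (mu ψ) (posW δ) G hμ0 hd0 hG
  set M : ℕ → ℝ := fun k => ∑ q ∈ T' k, mu ψ q with hMdef
  set η0 := 1 / (D * G) with hη0
  have hη00 : 0 < η0 := by positivity
  have hM : ∀ k : ℕ, η0 * ((k : ℝ) + 1) ≤ M k := by
    intro k
    rw [hη0, one_div_mul_eq_div, div_le_iff₀ (by positivity)]
    calc (k : ℝ) + 1 ≤ ∑ q ∈ T k, wD (1 + δ) ψ q := hTsum k
      _ ≤ ∑ q ∈ T k, D * (mu ψ q * posW δ (pos ψ q)) :=
          Finset.sum_le_sum fun q hq => hwv q (hT k q hq).1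
      _ = D * ∑ q ∈ T k, mu ψ q * posW δ (pos ψ q) := (Finset.mul_sum ..).symm
      _ ≤ D * (G * M k) := mul_le_mul_of_nonneg_left (hT'sum k) hD0.le
      _ = _ := by ring
  have hMη : ∀ k, η0 ≤ M k := fun k =>
    (le_mul_of_one_le_right hη00.le (by linarith [Nat.cast_nonneg (α := ℝ) k])).trans (hM k)
  have hT'P : ∀ k, ∀ q ∈ T' k, q ∈ P ∧ k ≤ q := fun k q hq => hT k q (hT'sub k hq)
  -- quasi-independence across slices
  have hX : ∀ q ∈ P, ∀ r ∈ P, slice q ≠ slice r →
      ∫ x in Set.Ico (0 : ℝ) 1, f q x * f r x ≤ max C2 0 * mu ψ q * mu ψ r := by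
    have main : ∀ q ∈ P, ∀ r ∈ P, slice q < slice r →
        ∫ x in Set.Ico (0 : ℝ) 1, f q x * f r x ≤ max C2 0 * mu ψ q * mu ψ r := by
      intro q hq r hr hlt
      obtain ⟨h3, hq0, -, hlq, -⟩ := hgood q hq
      obtain ⟨h3', -, -, hlr, -⟩ := hgood r hr
      have h8 : q ^ 8 ≤ r := slice_far (by omega) (by omega) hlq hlr (by
        have h1 := hq.2
        have h2 := hr.2
        omega)
      refine (hcross γ ψ _ _ _ _ q r (hab _).2.2.1 (hab _).2.2.1 hq0 (by omega) h8 hq.1.2 (hhalf q)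
        (hψ r) (hhalf r)).trans ?_
      exact mul_le_mul_of_nonneg_right (mul_le_mul_of_nonneg_right (le_max_left _ _) (hμ0 q))
        (hμ0 r)
    intro q hq r hr hne
    rcases lt_or_gt_of_ne hne with h | h
    · exact main q hq r hr h
    · simp only [mul_comm (f q _) (f r _)]
      refine (main r hr q hq h).trans_eq ?_
      ring
  set Tot := max C1 0 * (1 + 1 / η0) + max C2 0 with hTot
  have hsq : ∀ k, ∫ x in Set.Ico (0 : ℝ) 1, (∑ q ∈ T' k, f q x) ^ 2 ≤ Tot * M k ^ 2 := by
    intro k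
    rw [sq_integral γ ψ (fun q => ab (cls ψ q)) (T' k)]
    refine (pairs_bound (T' k) slice (mu ψ) _ (max C1 0) (max C2 0) hμ0 (le_max_right _ _)
      (le_max_right _ _) ?_
      fun q hq r hr hne => hX q (hT'P k q hq).1 r (hT'P k r hr).1 hne).trans ?_
    · intro j hj
      obtain ⟨q', hq', rfl⟩ := mem_image.1 hj
      set S := (T' k).filter (fun x => P028X.slice x = slice q') with hS
      set m := cls ψ q' with hm
      have hSm : ∀ q ∈ S, q ∈ P ∧ cls ψ q = m := by
        intro q hq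
        obtain ⟨h1, h2⟩ := mem_filter.1 hq
        have hp := hT'one k q h1 q' hq' h2
        have a1 := hclsT q (hT'P k q h1).1
        have a2 := hclsT q' (hT'P k q' hq').1
        refine ⟨(hT'P k q h1).1, ?_⟩
        unfold pos at hp
        rw [h2] at hp a1
        omega
      set K := ∑ q ∈ S, Real.log q with hK
      have hK0 : 0 ≤ K := Finset.sum_nonneg fun q _ => Real.log_natCast_nonneg q
      have hSc : IsCell zeta0 K (scale m) S ψ := by
        intro q hq
        obtain ⟨hqP, hqm⟩ := hSm q hq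
        obtain ⟨h3, -, hp, -⟩ := hgood q hqP
        obtain ⟨s1, s2⟩ := cls_spec ψ q (hL1 q hqP)
        rw [hqm] at s1 s2
        refine ⟨by omega, ?_, ?_, ?_⟩
        · rw [← Real.le_log_iff_exp_le hp]; linarith
        · rw [← Real.log_le_iff_le_exp hp]; linarith
        · exact (Finset.single_le_sum (fun q _ => Real.log_natCast_nonneg q) hq).trans
            (le_mul_of_one_le_right hK0 (one_le_scale m))
      have ht0 : t0 ≤ scale m := by
        obtain ⟨hqP, -⟩ := hT'P k q' hq'
        have h1 := (le_max_right _ _).trans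
          ((hgood q' hqP).2.2.2.2.1.trans (cls_spec ψ q' (hL1 q' hqP)).2)
        exact le_of_mul_le_mul_left h1 hz
      have h := hcell K γ ψ _ S (ab m).1 (ab m).2 ht0 hψ hSc (hab m)
      rw [sq_integral γ ψ (fun _ => ab m) S] at h
      have e : ∀ q ∈ S, ab (cls ψ q) = ab m := fun q hq => by rw [(hSm q hq).2]
      have hnn : 0 ≤ msum (mu ψ) S := sum_nonneg fun q _ => hμ0 q
      calc _ = ∑ q ∈ S, ∑ r ∈ S, ∫ x in Set.Ico (0 : ℝ) 1,
            fq γ ψ (ab m).1 (ab m).2 q x * fq γ ψ (ab m).1 (ab m).2 r x :=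
            sum_congr rfl fun q hq => sum_congr rfl fun r hr => by simp only [hf, e q hq, e r hr]
        _ ≤ C1 * (msum (mu ψ) S + msum (mu ψ) S ^ 2) := h
        _ ≤ _ := mul_le_mul_of_nonneg_right (le_max_left _ _) (by positivity)
    · have h1 : M k ≤ 1 / η0 * M k ^ 2 := by
        rw [one_div_mul_eq_div, le_div_iff₀ hη00, sq]
        exact mul_le_mul_of_nonneg_left (hMη k) (hη00.le.trans (hMη k))
      have h2 := mul_le_mul_of_nonneg_left h1 (le_max_right C1 0)
      rw [hTot]
      simp only [hMdef] at h2 ⊢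
      linarith
  set F : ℕ → ℝ → ℝ := fun k x => (∑ q ∈ T' k, f q x) / (2 * M k) with hF
  have hMpos : ∀ k, 0 < M k := fun k => hη00.trans_le (hMη k)
  have hfm : ∀ q, Measurable (f q) := fun q => fq_measurable γ ψ _ _ q
  refine full_measure_of_blocks γ ψ F (Tot / 4)
    (fun k => (Finset.measurable_sum _ fun q _ => hfm q).div_const _)
    (fun k x => div_nonneg (sum_nonneg fun q _ => hfn q x) (by linarith [hMpos k]))
    (fun k => ⟨((T' k).card : ℝ) / (2 * M k), fun x => ?_⟩) ?_ ?_ ?_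
  · refine div_le_div_of_nonneg_right ?_ (by linarith [hMpos k])
    calc ∑ q ∈ T' k, f q x ≤ ∑ q ∈ T' k, (1 : ℝ) := sum_le_sum fun q _ => fq_le_one γ ψ _ _ q x
      _ = ((T' k).card : ℝ) := by simp
  · intro k x hne
    obtain ⟨q, hq, hq'⟩ := exists_ne_zero_of_sum_ne_zero (left_ne_zero_of_mul hne)
    obtain ⟨hqP, hkq⟩ := hT'P k q hq
    exact ⟨q, hkq, by have := (hgood q hqP).1; omega, fq_ne_zero γ ψ _ _ q x hq'⟩
  · intro k
    have hpos' := hMpos k
    simp only [hF, div_pow]
    rw [integral_div, div_le_iff₀ (by positivity)]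
    exact (hsq k).trans_eq (by ring)
  · intro a b ha hab' hb'
    rw [← tendsto_sub_nhds_zero_iff]
    set C5 := max C3 0 * max C4 0 ^ 2 * 2 with hC5
    refine squeeze_zero_norm (a := fun k : ℕ => C5 / ((k : ℝ) + 1) ^ (1 / 2 : ℝ)) (fun k => ?_) ?_
    · have hpos' := hMpos k
      have hfi : ∀ q ∈ T' k, IntegrableOn (f q) (Set.Ioc a b) := fun q _ =>
        IntegrableOn.of_bound (by simp [Real.volume_Ioc]) (hfm q).aestronglyMeasurable
          1 (Eventually.of_forall fun x => by
            rw [Real.norm_of_nonneg (hfn q x)]; exact fq_le_one γ ψ _ _ q x)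
      have e : (∫ x in Set.Ioc a b, F k x) - (b - a)
          = (∑ q ∈ T' k, ((∫ x in Set.Ioc a b, f q x) - (b - a) * (2 * mu ψ q))) / (2 * M k) := by
        simp only [hF]
        rw [integral_div, integral_finsetSum _ hfi, sum_sub_distrib, ← mul_sum, ← mul_sum]
        simp only [hMdef] at hpos' ⊢
        field_simp
      rw [Real.norm_eq_abs, e, abs_div, abs_of_pos (by linarith : (0 : ℝ) < 2 * M k),
        div_le_iff₀ (by linarith)]
      refine (abs_sum_le_sum_abs _ _).trans ?_
      calc ∑ q ∈ T' k, |(∫ x in Set.Ioc a b, f q x) - (b - a) * (2 * mu ψ q)|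
          ≤ ∑ q ∈ T' k, 2 * (C5 / ((k : ℝ) + 1) ^ (1 / 2 : ℝ)) * mu ψ q := by
            refine sum_le_sum fun q hq => ?_
            obtain ⟨hqP, hkq⟩ := hT'P k q hq
            obtain ⟨h3, -⟩ := hgood q hqP
            have hqR : (0 : ℝ) < q := by exact_mod_cast (by omega : 0 < q)
            refine (hfirst γ ψ _ _ q a b (hab _).2.2.1 (by omega) (hψ q) (hhalf q) ha hab'
              hb').trans ?_
            have hτ : (q.divisors.card : ℝ) ≤ max C4 0 * (q : ℝ) ^ (1 / 4 : ℝ) :=
              (hdivb q (by omega)).trans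
                (mul_le_mul_of_nonneg_right (le_max_left _ _) (by positivity))
            have hμ : ψ q ≤ (q.divisors.card : ℝ) * mu ψ q := by
              have hth : 1 ≤ (q.divisors.card : ℝ) * th q := by
                refine le_trans ?_ (mul_le_mul_of_nonneg_right
                  (Ph_le_card_divisors q (by omega)) (th_nonneg q))
                have hne : (q.totient : ℝ) ≠ 0 := by
                  exact_mod_cast (Nat.totient_pos.2 (by omega : 0 < q)).ne'
                rw [Ph, th]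
                field_simp
                rfl
              calc ψ q ≤ (q.divisors.card : ℝ) * th q * ψ q :=
                    le_mul_of_one_le_left (hψ q) hth
                _ = _ := by rw [mu]; ring
            have hμq := hμ0 q
            have hk : ((k : ℝ) + 1) ^ (1 / 2 : ℝ) ≤ 2 * (q : ℝ) ^ (1 / 2 : ℝ) := by
              calc ((k : ℝ) + 1) ^ (1 / 2 : ℝ) ≤ ((4 : ℝ) * q) ^ (1 / 2 : ℝ) := by
                    refine Real.rpow_le_rpow (by positivity) ?_ (by norm_num)
                    have : (k : ℝ) ≤ q := by exact_mod_cast hkq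
                    have : (1 : ℝ) ≤ q := by exact_mod_cast (by omega : 1 ≤ q)
                    linarith
                _ = _ := by
                    rw [Real.mul_rpow (by norm_num) hqR.le, show (4 : ℝ) = 2 ^ (2 : ℝ) by norm_num,
                      ← Real.rpow_mul (by norm_num)]
                    norm_num
            calc C3 * ψ q * (q.divisors.card : ℝ) / q
                ≤ max C3 0 * ((max C4 0 * (q : ℝ) ^ (1 / 4 : ℝ)) * mu ψ q)
                    * (max C4 0 * (q : ℝ) ^ (1 / 4 : ℝ)) / q := by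
                  refine div_le_div_of_nonneg_right ?_ hqR.le
                  exact mul_le_mul (mul_le_mul (le_max_left _ _)
                    (hμ.trans (mul_le_mul_of_nonneg_right hτ hμq)) (hψ q) (le_max_right _ _))
                    hτ (Nat.cast_nonneg _) (by positivity)
              _ = max C3 0 * max C4 0 ^ 2 * mu ψ q / (q : ℝ) ^ (1 / 2 : ℝ) := by
                  have e2 : (q : ℝ) ^ (1 / 4 : ℝ) * (q : ℝ) ^ (1 / 4 : ℝ)
                      = (q : ℝ) ^ (1 / 2 : ℝ) := by
                    rw [← Real.rpow_add hqR]; norm_num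
                  have e3 : (q : ℝ) ^ (1 / 2 : ℝ) * (q : ℝ) ^ (1 / 2 : ℝ) = q := by
                    rw [← Real.rpow_add hqR]; norm_num
                  rw [eq_div_iff (by positivity), div_mul_eq_mul_div, div_eq_iff hqR.ne']
                  linear_combination (max C3 0 * max C4 0 ^ 2 * mu ψ q) *
                    ((q : ℝ) ^ (1 / 2 : ℝ) * e2 + e3)
              _ ≤ 2 * (C5 / ((k : ℝ) + 1) ^ (1 / 2 : ℝ)) * mu ψ q := by
                  rw [hC5, div_le_iff₀ (by positivity), mul_comm (2 : ℝ), div_mul_eq_mul_div,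
                    div_mul_eq_mul_div, div_mul_eq_mul_div, le_div_iff₀ (by positivity)]
                  have := mul_le_mul_of_nonneg_left hk
                    (show 0 ≤ max C3 0 * max C4 0 ^ 2 * mu ψ q by positivity)
                  have h0 : 0 ≤ max C3 0 * max C4 0 ^ 2 * mu ψ q * (q : ℝ) ^ (1 / 2 : ℝ) := by
                    positivity
                  linarith
        _ = _ := by rw [← mul_sum]; simp only [hMdef]; ring
    · exact tendsto_const_nhds.div_atTop ((tendsto_rpow_atTop (by norm_num)).comp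
        (tendsto_natCast_atTop_atTop.atTop_add tendsto_const_nhds))

/-- Q1 for every shift and every `ψ` up to the factor `(log log q) ^ (1+δ)`. -/
theorem weak_inhom_DS_any (γ δ : ℝ) (hδ : 0 < δ) (ψ : ℕ → ℝ) (hψ : ∀ q, 0 ≤ ψ q)
    (hdiv : ¬ Summable (wD (1 + δ) ψ)) :
    ∀ᵐ x : ℝ, {q : ℕ | 0 < q ∧ distInt ((q : ℝ) * x - γ) < ψ q}.Infinite := by
  classical
  obtain ⟨T, hT1, hcore⟩ := extraU_core
  have hδ' : (0 : ℝ) ≤ 1 + δ := by linarith
  by_cases hbig : {q : ℕ | 1 / 2 < ψ q}.Infinite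
  · refine Eventually.of_forall fun x => ((hbig.sdiff (Set.finite_singleton 0))).mono ?_
    rintro q ⟨hq, hq0⟩
    exact ⟨Nat.pos_of_ne_zero (by simpa using hq0), lt_of_le_of_lt (abs_sub_round _) hq⟩
  set ψ' : ℕ → ℝ := fun q => if ψ q ≤ 1 / 2 then min (ψ q) (Real.exp (-T)) else 0 with hψ'
  have h0 : ∀ q, 0 ≤ ψ' q := fun q => by
    simp only [hψ']; split_ifs
    · exact le_min (hψ q) (Real.exp_pos _).le
    · exact le_rfl
  have hle : ∀ q, ψ' q ≤ ψ q := fun q => by
    simp only [hψ']; split_ifs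
    · exact min_le_left _ _
    · exact hψ q
  have hb : ∀ q, ψ' q ≤ Real.exp (-T) := fun q => by
    simp only [hψ']; split_ifs
    · exact min_le_right _ _
    · exact (Real.exp_pos _).le
  have hd : ¬ Summable (wD (1 + δ) ψ') := by
    intro hs
    apply hdiv
    obtain hfin : {q : ℕ | 1 / 2 < ψ q}.Finite := Set.not_infinite.1 hbig
    refine (((hs.mul_left (Real.exp T))).add (summable_of_ne_finset_zero (s := hfin.toFinset)
      (f := fun q => ({q : ℕ | 1 / 2 < ψ q}).indicator (wD (1 + δ) ψ) q) fun q hq =>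
        Set.indicator_of_notMem (fun h => hq (hfin.mem_toFinset.2 h)) _)).of_nonneg_of_le
      (wD_nonneg hδ' hψ) fun q => ?_
    have hT' : 1 ≤ Real.exp T := Real.one_le_exp (by linarith)
    by_cases hq : ψ q ≤ 1 / 2
    swap
    · rw [Set.indicator_of_mem (show q ∈ {q : ℕ | 1 / 2 < ψ q} from not_le.1 hq)]
      linarith [mul_nonneg (Real.exp_pos T).le (wD_nonneg hδ' h0 q)]
    rw [Set.indicator_of_notMem (show q ∉ {q : ℕ | 1 / 2 < ψ q} from not_lt.2 hq), add_zero]
    have he : ψ' q = min (ψ q) (Real.exp (-T)) := if_pos hq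
    rcases le_or_gt (ψ q) (Real.exp (-T)) with h | h
    · have hh : ψ' q = ψ q := by rw [he, min_eq_left h]
      have : wD (1 + δ) ψ' q = wD (1 + δ) ψ q := by simp only [wD, lossD, mu, hh]
      rw [this]
      exact le_mul_of_one_le_left (wD_nonneg hδ' hψ q) hT'
    · have hh : ψ' q = Real.exp (-T) := by rw [he, min_eq_right h.le]
      have hlog : lossD (1 + δ) ψ' q ≤ lossD (1 + δ) ψ q := by
        have hlt := Real.log_le_log (Real.exp_pos _) h.le
        rw [Real.log_exp] at hlt
        have hmax : max 1 (-Real.log (ψ q)) ≤ max 1 (-Real.log (ψ' q)) := by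
          rw [hh, Real.log_exp, neg_neg, max_eq_right hT1]
          exact max_le hT1 (by linarith)
        unfold lossD
        refine Real.rpow_le_rpow (le_trans zero_le_one (one_le_log_three.trans
          (Real.log_le_log (by norm_num) (lossD_arg q ψ')))) (Real.log_le_log ?_ ?_) hδ'
        · linarith [lossD_arg q ψ']
        · exact add_le_add le_rfl (div_le_div_of_nonneg_left (Real.log_natCast_nonneg q)
            (lt_of_lt_of_le one_pos (le_max_left _ _)) hmax)
      have hmu : mu ψ q ≤ Real.exp T * mu ψ' q := by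
        simp only [mu, hh]
        rw [mul_left_comm, ← Real.exp_add, add_neg_cancel, Real.exp_zero]
        exact mul_le_mul_of_nonneg_left (hq.trans (by norm_num)) (th_nonneg q)
      calc wD (1 + δ) ψ q = mu ψ q / lossD (1 + δ) ψ q := rfl
        _ ≤ Real.exp T * mu ψ' q / lossD (1 + δ) ψ' q :=
            div_le_div₀ (mul_nonneg (Real.exp_pos T).le (mu_nonneg_X h0 q)) hmu
              (lt_of_lt_of_le one_pos (one_le_lossD hδ' ψ' q)) hlog
        _ = _ := by rw [wD]; ring
  filter_upwards [hcore γ δ ψ' hδ h0 hb hd] with x hx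
  exact hx.mono fun q hq => ⟨hq.1, hq.2.trans_le (hle q)⟩

end Vale.Agent.P028U
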