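import Vale.Agent.P028.CellTop
import Vale.Agent.P028X.TopEnergy

/-! P028U: inside a cell, a nonzero coincidence with tiny `η` forces sparsity of the small values of
`‖γ m‖`, for every shift `γ` (the excluded multiples of the approximation are few). -/

namespace Vale.Agent.P028U

open Finset Vale.Agent.P028

lemma sparse_cell {γ t : ℝ} {A : ℤ} {B : ℕ} (hAB : IsApprox γ (Real.exp (t / 2)) A B) (ht : 2 ≤ t)
    {n L u v : ℕ} {η : ℝ} {k : ℤ} (hu : u < 2 ^ (L + 1)) (hv : v < 2 ^ (L + 1))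
    (hL : (2 : ℝ) ^ L ≤ (u : ℝ) + v) (hup : (u : ℝ) + v ≤ Real.exp (2 * t))
    (hlow : η * Real.exp t ≤ (u : ℝ) + v) (hη : η ≤ Real.exp (-rhoM * t))
    (hk : |(k : ℝ) + γ * ((v : ℝ) - u)| < η) (hD : (B : ℤ) * k + A * ((v : ℤ) - u) ≠ 0) :
    P028X.TopAux.Sparse γ (rhoM / 2) 91 n L (Real.exp (-rhoM * t)) ∧
      Real.exp (t / 2) / 8 ≤ (2 : ℝ) ^ L := by
  obtain ⟨hB, hBQ, hcop, hδ⟩ := hAB
  have hBR : (0 : ℝ) < B := by exact_mod_cast hB
  set hi := Real.exp (-rhoM * t) with hhi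
  have hhi0 : 0 < hi := Real.exp_pos _
  set Q := Real.exp (t / 2) with hQ
  have hQ0 : 0 < Q := Real.exp_pos _
  set d := |(B : ℝ) * γ - A| with hd
  have hd0 : 0 ≤ d := abs_nonneg _
  have hQhi : 1 / Q ≤ hi := by
    rw [one_div, hQ, ← Real.exp_neg, hhi]
    refine Real.exp_le_exp.2 ?_
    have : rhoM * t ≤ 1 / 2 * t :=
      mul_le_mul_of_nonneg_right (by norm_num [rhoM]) (by linarith)
    linarith
  set X := (2 : ℝ) ^ L with hX
  have hX0 : 0 < X := by positivity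
  have huR : (u : ℝ) ≤ 2 * X := by
    have : (u : ℝ) ≤ ((2 ^ (L + 1) : ℕ) : ℝ) := by exact_mod_cast hu.le
    rw [hX]
    push_cast at this
    rwa [pow_succ, mul_comm] at this
  have hvR : (v : ℝ) ≤ 2 * X := by
    have : (v : ℝ) ≤ ((2 ^ (L + 1) : ℕ) : ℝ) := by exact_mod_cast hv.le
    rw [hX]
    push_cast at this
    rwa [pow_succ, mul_comm] at this
  have hu0 : (0 : ℝ) ≤ u := Nat.cast_nonneg _
  have hv0 : (0 : ℝ) ≤ v := Nat.cast_nonneg _
  have hcase : 1 / 2 ≤ (B : ℝ) * η ∨ 1 / 2 ≤ d * (4 * X) := by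
    have e : (((B : ℤ) * k + A * ((v : ℤ) - u) : ℤ) : ℝ)
        = (B : ℝ) * ((k : ℝ) + γ * ((v : ℝ) - u)) - ((B : ℝ) * γ - A) * ((v : ℝ) - u) := by
      push_cast; ring
    have h1 : (1 : ℝ) ≤ |(((B : ℤ) * k + A * ((v : ℤ) - u) : ℤ) : ℝ)| := by
      exact_mod_cast Int.one_le_abs hD
    rw [e] at h1
    have h2 := h1.trans (abs_sub _ _)
    rw [abs_mul, abs_mul, Nat.abs_cast, ← hd] at h2
    have h3 : (B : ℝ) * |(k : ℝ) + γ * ((v : ℝ) - u)| ≤ B * η :=
      mul_le_mul_of_nonneg_left hk.le hBR.le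
    have h4 : d * |(v : ℝ) - u| ≤ d * (4 * X) :=
      mul_le_mul_of_nonneg_left (abs_le.2 ⟨by linarith, by linarith⟩) hd0
    by_contra hcon
    push Not at hcon
    linarith
  have hQX : Q / 8 ≤ X := by
    rcases hcase with h | h
    · have h1 : 1 / 2 ≤ Q * η := h.trans (mul_le_mul_of_nonneg_right hBQ
        (le_trans (abs_nonneg _) hk.le))
      have e : Real.exp t = Q * Q := by rw [hQ, ← Real.exp_add]; ring_nf
      rw [e] at hlow
      have h2 := mul_le_mul_of_nonneg_right h1 hQ0.le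
      linarith
    · have h1 : 1 / 2 ≤ 1 / Q * (4 * X) :=
        h.trans (mul_le_mul_of_nonneg_right hδ (by positivity))
      rw [one_div_mul_eq_div, le_div_iff₀ hQ0] at h1
      linarith
  refine ⟨fun N hN => ?_, hQX⟩
  rw [Real.rpow_natCast, ← hX] at hN ⊢
  have h2n : (1 : ℝ) ≤ (2 : ℝ) ^ n := one_le_pow₀ one_le_two
  set s := (Icc 1 N).filter fun m : ℕ => distInt ((m : ℝ) * γ) < 2 * hi with hs
  let D : ℕ → ℤ := fun m => (B : ℤ) * (-round ((m : ℝ) * γ)) + A * m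
  have hwit : ∀ m ∈ s, |((-round ((m : ℝ) * γ) : ℤ) : ℝ) + γ * (m : ℝ)| < 2 * hi := by
    intro m hm
    refine lt_of_eq_of_lt ?_ (mem_filter.1 hm).2
    unfold distInt
    push_cast
    congr 1
    ring
  set s1 := s.filter fun m => D m ≠ 0 with hs1
  set s0 := s.filter fun m => ¬ D m ≠ 0 with hs0
  have hsplit : (s.card : ℝ) = s1.card + s0.card := by
    rw [← Nat.cast_add, hs1, hs0, card_filter_add_card_filter_not]
  have h1 : (s1.card : ℝ) ≤ 75 * ((2 : ℝ) ^ n * X * hi) := by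
    have hcard : (s1.card : ℝ) = ((s1.image fun m : ℕ => (m : ℤ)).card : ℝ) := by
      rw [card_image_of_injective _ Nat.cast_injective]
    rw [hcard]
    refine (coinc_count γ A B hB hcop (2 * hi) N (by positivity) (Nat.cast_nonneg _) _
      fun h hh => ?_).trans ?_
    · obtain ⟨m, hm, rfl⟩ := mem_image.1 hh
      obtain ⟨hms, hmD⟩ := mem_filter.1 hm
      refine ⟨?_, -round ((m : ℝ) * γ), ?_, hmD⟩
      · push_cast
        rw [Nat.abs_cast]
        exact_mod_cast (mem_Icc.1 (mem_filter.1 hms).1).2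
      · simpa using hwit m hms
    · have hdh : |(B : ℝ) * γ - A| ≤ hi := hδ.trans hQhi
      have a1 : (N : ℝ) * hi ≤ (2 : ℝ) ^ n * X * hi := mul_le_mul_of_nonneg_right hN hhi0.le
      have a2 : |(B : ℝ) * γ - A| * N ≤ hi * N := mul_le_mul_of_nonneg_right hdh (Nat.cast_nonneg _)
      have a3 : (B : ℝ) * hi ≤ 8 * X * hi :=
        mul_le_mul_of_nonneg_right (hBQ.trans (by linarith)) hhi0.le
      have a4 : X * hi ≤ (2 : ℝ) ^ n * X * hi :=
        mul_le_mul_of_nonneg_right (le_mul_of_one_le_left hX0.le h2n) hhi0.le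
      linarith
  have hmult : ∀ m ∈ s0, B ∣ m ∧ 0 < m ∧ m ≤ N ∧ ((m / B : ℕ) : ℝ) * d < 2 * hi := by
    intro m hm
    obtain ⟨hms, hmD⟩ := mem_filter.1 hm
    rw [not_not] at hmD
    obtain ⟨hm1, hmN⟩ := mem_Icc.1 (mem_filter.1 hms).1
    have hdiv : B ∣ m := by
      have h0 : (B : ℤ) ∣ A * m := ⟨round ((m : ℝ) * γ), by
        simp only [D] at hmD; linear_combination hmD⟩
      exact_mod_cast hcop.symm.dvd_of_dvd_mul_left h0
    refine ⟨hdiv, hm1, hmN, ?_⟩
    obtain ⟨j, rfl⟩ := hdiv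
    rw [Nat.mul_div_cancel_left j hB]
    refine lt_of_eq_of_lt ?_ (hwit _ hms)
    simp only [D] at hmD
    have hz : (B : ℝ) * (-round (((B * j : ℕ) : ℝ) * γ) : ℤ) + A * ((B * j : ℕ) : ℝ) = 0 := by
      exact_mod_cast hmD
    have e : ((-round (((B * j : ℕ) : ℝ) * γ) : ℤ) : ℝ) + γ * ((B * j : ℕ) : ℝ)
        = (j : ℝ) * ((B : ℝ) * γ - A) := by
      push_cast at hz ⊢
      refine mul_left_cancel₀ hBR.ne' ?_
      linear_combination hz
    rw [e, abs_mul, Nat.abs_cast, hd]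
  have h0 : (s0.card : ℝ) ≤ 16 * ((2 : ℝ) ^ n * X * hi) := by
    have hinj : ∀ m ∈ s0, ∀ m' ∈ s0, m / B = m' / B → m = m' := by
      intro m hm m' hm' he
      rw [← Nat.mul_div_cancel' (hmult m hm).1, ← Nat.mul_div_cancel' (hmult m' hm').1, he]
    have hbound : ∀ W : ℝ, (∀ m ∈ s0, ((m / B : ℕ) : ℝ) ≤ W) → 0 ≤ W → (s0.card : ℝ) ≤ W := by
      intro W hW hW0
      refine le_trans ?_ (Nat.floor_le hW0)
      have hc := card_le_card_of_injOn (t := Icc 1 ⌊W⌋₊) (fun m => m / B) (fun m hm => ?_)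
        (fun m hm m' hm' he => hinj m hm m' hm' he)
      · rw [Nat.card_Icc, Nat.add_sub_cancel] at hc
        exact_mod_cast hc
      · obtain ⟨hd', hm0, -, -⟩ := hmult m hm
        exact mem_coe.2 (mem_Icc.2 ⟨Nat.div_pos (Nat.le_of_dvd hm0 hd') hB, Nat.le_floor (hW m hm)⟩)
    rcases hcase with h | h
    · have hBhi : 1 / 2 ≤ (B : ℝ) * hi := h.trans (mul_le_mul_of_nonneg_left hη hBR.le)
      refine (hbound (2 * (N * hi)) (fun m hm => ?_) (by positivity)).trans ?_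
      · obtain ⟨hd', -, hmN, -⟩ := hmult m hm
        rw [Nat.cast_div hd' hBR.ne', div_le_iff₀ hBR]
        have hmR : (m : ℝ) ≤ N := by exact_mod_cast hmN
        have := mul_le_mul_of_nonneg_left hBhi (show (0 : ℝ) ≤ 2 * N by positivity)
        linarith
      · have := mul_le_mul_of_nonneg_right hN hhi0.le
        have : 0 ≤ (2 : ℝ) ^ n * X * hi := by positivity
        linarith
    · refine (hbound (16 * X * hi) (fun m hm => ?_) (by positivity)).trans ?_
      · have hlt := (hmult m hm).2.2.2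
        have h5 := mul_le_mul_of_nonneg_left h (Nat.cast_nonneg (α := ℝ) (m / B))
        have h6 := mul_le_mul_of_nonneg_right hlt.le (show (0 : ℝ) ≤ 4 * X by positivity)
        linarith
      · have := mul_le_mul_of_nonneg_right (le_mul_of_one_le_left hX0.le h2n) hhi0.le
        linarith
  have hpow : hi ≤ (2 : ℝ) ^ (-(rhoM / 2 * L)) := by
    rw [show -(rhoM / 2 * (L : ℝ)) = (L : ℝ) * (-(rhoM / 2)) by ring, Real.rpow_mul two_pos.le,
      Real.rpow_natCast, ← hX, hhi]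
    calc Real.exp (-rhoM * t) = (Real.exp (2 * t)) ^ (-(rhoM / 2)) := by
          rw [← Real.exp_mul]; ring_nf
      _ ≤ _ := Real.rpow_le_rpow_of_nonpos hX0 (hL.trans hup) (by norm_num [rhoM])
  rw [hsplit]
  calc (s1.card : ℝ) + s0.card ≤ 91 * ((2 : ℝ) ^ n * X * hi) := by linarith
    _ ≤ 91 * ((2 : ℝ) ^ n * X * (2 : ℝ) ^ (-(rhoM / 2 * L))) := by gcongr
    _ = _ := by ring

end Vale.Agent.P028U
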