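import Vale.Agent.P028U.Sparse
import Vale.Agent.P028X.Top

/-! P028U module TOP: pairs of one cell with `η < e^{-ρ t}`, for every shift and every size of `q`,
by counting closed walks in the sparse set of ratios. -/

namespace Vale.Agent.P028U

open Finset Vale.Agent.P028
open Vale.Agent.P028X.TopAux (ratioSet ratioSet_pos walks_sparse class_bound class_decay eta_sq
  log_le_scale)

open Classical in
/-- The coincidences of the band: `1 / η` on pairs with a nonzero coincidence and `η < hi`. -/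
noncomputable def kerU (γ : ℝ) (ψ : ℕ → ℝ) (A : ℤ) (B : ℕ) (hi : ℝ) (q r : ℕ) : ℝ :=
  if q ≠ r ∧ etaP ψ q r < hi ∧
      ∃ n : ℤ, |(n : ℝ) + γ * (hh q r : ℝ)| < etaP ψ q r ∧ D0 A B q r n ≠ 0
  then 1 / etaP ψ q r else 0

/-- The kernel is at most a tiny power of `e^t` times `kerU`. -/
lemma kern_le (θ : ℝ) (hθ : 0 < θ) :
    ∃ Cd : ℝ, 1 ≤ Cd ∧ ∀ (K γ t : ℝ) (ψ : ℕ → ℝ) (S : Finset ℕ) (A : ℤ) (B q r : ℕ),
      max 2 (1 / rhoM) ≤ t → (∀ n, 0 ≤ ψ n) → IsCell zeta0 K t S ψ →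
      IsApprox γ (Real.exp (t / 2)) A B → q ∈ S → r ∈ S →
      kernBand γ ψ A B 0 (Real.exp (-rhoM * t)) q r
        ≤ Cd ^ 2 * Real.exp (5 * θ * t) * kerU γ ψ A B (Real.exp (-rhoM * t)) q r := by
  classical
  obtain ⟨Cd, hCd⟩ := card_divisors_le θ hθ
  have hCd1 : 1 ≤ Cd := by simpa using hCd 1 one_pos
  refine ⟨Cd, hCd1, fun K γ t ψ S A B q r ht hψ hS hAp hq hr => ?_⟩
  obtain ⟨hB, hBQ, hcop, hδ⟩ := hAp
  have hρ : (0 : ℝ) < rhoM := by norm_num [rhoM]
  have ht2 : 2 ≤ t := le_trans (le_max_left _ _) ht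
  have htρ : 1 ≤ rhoM * t := by
    have := le_trans (le_max_right _ _) ht
    rw [div_le_iff₀ hρ] at this; linarith
  have hexp2 : (2 : ℝ) ≤ Real.exp (rhoM * t) := by
    linarith [Real.add_one_le_exp (rhoM * t)]
  set hi := Real.exp (-rhoM * t) with hhi
  have hhi2 : 2 * hi ≤ 1 := by
    rw [hhi, neg_mul, Real.exp_neg, ← div_eq_mul_inv, div_le_one (Real.exp_pos _)]; exact hexp2
  set δ := |(B : ℝ) * γ - A| with hδdef
  have hδ0 : 0 ≤ δ := abs_nonneg _
  have hδ' : δ ≤ Real.exp (-(t / 2)) := by rw [Real.exp_neg, ← one_div]; exact hδ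
  set E : ℝ := Cd ^ 2 * Real.exp (5 * θ * t) with hE
  have hE0 : 0 ≤ E := by positivity
  have hq0 := (hS q hq).1
  have hr0 := (hS r hr).1
  obtain ⟨hηp, huv, -⟩ := etaP_bounds K t S ψ hS q r hq hr
  have hRHS : 0 ≤ E * kerU γ ψ A B hi q r := by
    refine mul_nonneg hE0 ?_
    unfold kerU
    split_ifs
    · exact (one_div_pos.2 hηp).le
    · exact le_rfl
  unfold kernBand
  split_ifs with hband
  swap
  · exact hRHS
  obtain ⟨hη0, hηhi⟩ := hband
  unfold kern
  split_ifs with hqr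
  · exact hRHS
  set η := etaP ψ q r with hη
  have hu1 : 1 ≤ uu q r := uu_pos q r hq0
  have hv1 : 1 ≤ vv q r := vv_pos q r hr0
  have huvt : (uu q r : ℝ) + vv q r ≤ Real.exp (2 * t) := by
    refine huv.trans ?_
    calc η * Real.exp ((1 + zeta0) * t) ≤ 1 * Real.exp (2 * t) := by
          refine mul_le_mul (by linarith) (Real.exp_le_exp.2 ?_) (Real.exp_pos _).le zero_le_one
          exact mul_le_mul_of_nonneg_right (by norm_num [zeta0]) (by linarith)
      _ = _ := one_mul _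
  by_cases hev : ∃ n ∈ nWin γ η q r, D0 A B q r n ≠ 0
  swap
  · push Not at hev
    have : ∑ n ∈ nWin γ η q r, Wn A B q r n = 0 :=
      Finset.sum_eq_zero fun n hn => by rw [Wn, if_pos (hev n hn)]
    rw [this, zero_div]; exact hRHS
  obtain ⟨n0, hn0, hn0D⟩ := hev
  have hwin : ∀ n ∈ nWin γ η q r, |(n : ℝ) + γ * (hh q r : ℝ)| < η := fun n hn =>
    (Finset.mem_filter.1 hn).2
  have huniq : nWin γ η q r = {n0} := by
    refine Finset.eq_singleton_iff_unique_mem.2 ⟨hn0, fun n hn => ?_⟩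
    have h1 := abs_lt.1 (hwin n hn)
    have h2 := abs_lt.1 (hwin n0 hn0)
    have h3 : |(((n - n0 : ℤ)) : ℝ)| < 1 := by
      rw [abs_lt]; push_cast; constructor <;> linarith
    have h4 : |n - n0| < 1 := by exact_mod_cast h3
    have := abs_lt.1 h4
    omega
  have hW : Wn A B q r n0 ≤ E := by
    refine (Wn_le A B q r n0 hq0 hr0).trans ?_
    rw [if_neg hn0D]
    have hm : 0 < uu q r * vv q r := Nat.mul_pos hu1 hv1
    have h1 : Ph (uu q r * vv q r) ≤ Cd * Real.exp (4 * θ * t) := by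
      refine (Ph_le_card_divisors _ hm).trans ((hCd _ hm).trans
        (mul_le_mul_of_nonneg_left ?_ (by linarith)))
      refine (Real.rpow_le_rpow (Nat.cast_nonneg _) (?_ : _ ≤ Real.exp (4 * t)) hθ.le).trans ?_
      · push_cast
        calc (uu q r : ℝ) * vv q r ≤ Real.exp (2 * t) * Real.exp (2 * t) := by
              have a : (0 : ℝ) ≤ uu q r := Nat.cast_nonneg _
              have b : (0 : ℝ) ≤ vv q r := Nat.cast_nonneg _
              exact mul_le_mul (by linarith) (by linarith) b (Real.exp_pos _).le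
          _ = _ := by rw [← Real.exp_add]; ring_nf
      · rw [← Real.exp_mul]; exact Real.exp_le_exp.2 (le_of_eq (by ring))
    have h2 : ((D0 A B q r n0).natAbs.divisors.card : ℝ) ≤ Cd * Real.exp (θ * t) := by
      have hN : 0 < (D0 A B q r n0).natAbs := Int.natAbs_pos.2 hn0D
      refine (hCd _ hN).trans (mul_le_mul_of_nonneg_left ?_ (by linarith))
      rw [mul_comm θ t, Real.exp_mul]
      refine Real.rpow_le_rpow (Nat.cast_nonneg _) ?_ hθ.le
      rw [Nat.cast_natAbs, Int.cast_abs]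
      refine (abs_D0_le γ A B q r n0).trans ?_
      have e1 : (B : ℝ) * |(n0 : ℝ) + γ * (hh q r : ℝ)| ≤ Real.exp (t / 2) * 1 :=
        mul_le_mul hBQ (by linarith [hwin n0 hn0]) (abs_nonneg _) (Real.exp_pos _).le
      have e2 : δ * ((uu q r : ℝ) + vv q r) ≤ Real.exp ((1 / 2 + zeta0) * t) := by
        calc δ * ((uu q r : ℝ) + vv q r)
            ≤ Real.exp (-(t / 2)) * (η * Real.exp ((1 + zeta0) * t)) :=
              mul_le_mul hδ' huv (by positivity) (Real.exp_pos _).le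
          _ ≤ Real.exp (-(t / 2)) * (1 * Real.exp ((1 + zeta0) * t)) := by
              gcongr; linarith
          _ = _ := by rw [one_mul, ← Real.exp_add]; ring_nf
      have e3 : Real.exp (t / 2) * 1 + Real.exp ((1 / 2 + zeta0) * t) ≤ Real.exp t := by
        have f1 : Real.exp (t / 2) * 2 ≤ Real.exp t := by
          calc Real.exp (t / 2) * 2 ≤ Real.exp (t / 2) * Real.exp (t / 2) := by
                refine mul_le_mul_of_nonneg_left ?_ (Real.exp_pos _).le
                linarith [Real.add_one_le_exp (t / 2)]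
            _ = _ := by rw [← Real.exp_add]; ring_nf
        have f2 : Real.exp ((1 / 2 + zeta0) * t) * 2 ≤ Real.exp t := by
          calc Real.exp ((1 / 2 + zeta0) * t) * 2
              ≤ Real.exp ((1 / 2 + zeta0) * t) * Real.exp ((1 / 2 - zeta0) * t) := by
                refine mul_le_mul_of_nonneg_left ?_ (Real.exp_pos _).le
                have h25 : (2 / 5 : ℝ) * t ≤ (1 / 2 - zeta0) * t :=
                  mul_le_mul_of_nonneg_right (by norm_num [zeta0]) (by linarith)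
                have := Real.add_one_le_exp ((1 / 2 - zeta0) * t)
                have h3 : (2 : ℝ) ≤ Real.exp ((1 / 2 - zeta0) * t) ∨ t < 5 / 2 := by
                  rcases le_or_gt (5 / 2 : ℝ) t with h | h
                  · left; linarith
                  · right; exact h
                rcases h3 with h3 | h3
                · exact h3
                · exfalso
                  have : (100000 : ℝ) ≤ t := by
                    have := le_trans (le_max_right _ _) ht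
                    norm_num [rhoM] at this; linarith
                  linarith
            _ = _ := by rw [← Real.exp_add]; ring_nf
        linarith
      linarith
    calc Ph (uu q r * vv q r) * ((D0 A B q r n0).natAbs.divisors.card : ℝ)
        ≤ (Cd * Real.exp (4 * θ * t)) * (Cd * Real.exp (θ * t)) :=
          mul_le_mul h1 h2 (Nat.cast_nonneg _) (by positivity)
      _ = E := by
          rw [hE, show (5 * θ * t) = 4 * θ * t + θ * t by ring, Real.exp_add]; ring
  rw [huniq, Finset.sum_singleton]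
  refine (div_le_div_of_nonneg_right hW hηp.le).trans (le_of_eq ?_)
  rw [kerU, if_pos ⟨hqr, hηhi, n0, hwin n0 hn0, hn0D⟩, mul_one_div]

/-- Regime TOP of a cell, without any restriction on the shift or on the size of `q`. -/
theorem top_boundU :
    ∃ C t0 : ℝ, ∀ (K γ : ℝ) (ψ : ℕ → ℝ) (t : ℝ) (S : Finset ℕ) (A : ℤ) (B : ℕ),
      t0 ≤ t → (∀ q, 0 ≤ ψ q) → IsCell zeta0 K t S ψ → IsApprox γ (Real.exp (t / 2)) A B →
      pairSum (mu ψ) (kernBand γ ψ A B 0 (Real.exp (-rhoM * t))) S S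
        ≤ C * (msum (mu ψ) S + msum (mu ψ) S ^ 2) := by
  classical
  set θ := rhoM / 2 with hθdef
  have hθ : 0 < θ := by rw [hθdef]; norm_num [rhoM]
  obtain ⟨j, hj⟩ := pow_unbounded_of_one_lt (52 / θ) (one_lt_two (α := ℝ))
  set m := 2 ^ (j + 1) with hm
  have hm1 : 1 ≤ m := Nat.one_le_two_pow
  have hmR : 52 / θ ≤ (m : ℝ) := by
    rw [hm]; push_cast
    exact hj.le.trans (pow_le_pow_right₀ one_le_two (Nat.le_succ j))
  set κ := θ * m / 4 - 1 with hκdef
  have hκ12 : 12 ≤ κ := by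
    rw [div_le_iff₀ hθ] at hmR
    rw [hκdef]
    linarith
  obtain ⟨Cw, hCw0, hCw⟩ := walks_sparse (D0 := 91) hθ (by rw [hθdef]; norm_num [rhoM]) (by norm_num) m
  have hmpos : (0 : ℝ) < m := by exact_mod_cast hm1
  set σ := Real.log 2 / (4 * (m : ℝ)) with hσ
  have hσ0 : 0 < σ := div_pos (Real.log_pos one_lt_two) (by positivity)
  obtain ⟨Cd, hCd1, hkern⟩ := kern_le (σ / 5) (by positivity)
  set C1 := Cw * (2 : ℝ) ^ (-(κ * (-3 : ℝ))) with hC1
  have hC10 : 0 ≤ C1 := by positivity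
  set r : ℝ := (2 : ℝ) ^ (-(1 / (8 * ((2 * m : ℕ) : ℝ)))) with hr
  have hr0 : 0 ≤ r := by positivity
  have hr1 : r < 1 := Real.rpow_lt_one_of_one_lt_of_neg one_lt_two
    (neg_neg_of_pos (by push_cast; positivity))
  set C2 := 4 * C1 ^ (((2 * m : ℕ) : ℝ)⁻¹) with hC2
  refine ⟨Cd ^ 2 * (C2 * (1 / (1 - r)) ^ 4), max 20 (max 2 (1 / rhoM)),
    fun K γ ψ t S A B ht hψ hS hAB => ?_⟩
  have ht20 : 20 ≤ t := (le_max_left _ _).trans ht
  have ht2 : max 2 (1 / rhoM) ≤ t := (le_max_right _ _).trans ht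
  set hi := Real.exp (-rhoM * t) with hhi
  have hhi1 : hi ≤ 1 := Real.exp_le_one_iff.2 (by rw [neg_mul]; norm_num [rhoM]; linarith)
  set M := msum (mu ψ) S with hM
  have hmu0 : ∀ q, 0 ≤ mu ψ q := mu_nonneg' hψ
  have hmule : ∀ q, mu ψ q ≤ ψ q := fun q => mul_le_of_le_one_left (hψ q) (th_le_one q)
  have hM0 : 0 ≤ M := Finset.sum_nonneg fun q _ => hmu0 q
  have hSp : ∀ q ∈ S, 0 < q ∧ 0 < ψ q ∧ ψ q ≤ 1 := fun q hq =>
    ⟨(hS q hq).1, lt_of_lt_of_le (Real.exp_pos _) (hS q hq).2.1,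
      (hS q hq).2.2.1.trans (Real.exp_le_one_iff.2 (by linarith))⟩
  have hex : ∀ q ∈ S, ∃ l : ℕ, (1 / 2 : ℝ) ^ (l + 1) < ψ q ∧ ψ q ≤ (1 / 2 : ℝ) ^ l := fun q hq =>
    exists_nat_pow_near_of_lt_one (hSp q hq).2.1 (hSp q hq).2.2 (by norm_num) (by norm_num)
  choose! l hl1 hl2 using hex
  have hl2log : (0 : ℝ) < Real.log 2 := Real.log_pos one_lt_two
  have hlrange : ∀ q ∈ S, t - 1 ≤ (l q : ℝ) ∧ (l q : ℝ) * Real.log 2 ≤ (1 + zeta0) * t := by
    intro q hq
    obtain ⟨-, hlo, hup, -⟩ := hS q hq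
    have h1 := Real.log_le_log (by positivity) ((hl1 q hq).le.trans hup)
    have h2 := Real.log_le_log (Real.exp_pos _) (hlo.trans (hl2 q hq))
    rw [Real.log_exp, Real.log_pow, one_div, Real.log_inv] at h1 h2
    push_cast at h1
    refine ⟨?_, by linarith⟩
    have h3 := mul_le_mul_of_nonneg_left (show Real.log 2 ≤ 1 by linarith [Real.log_two_lt_d9])
      (show (0 : ℝ) ≤ (l q : ℝ) + 1 by positivity)
    linarith
  set cls : ℕ × ℕ → (ℕ × ℕ) × (ℕ × ℕ) := fun p =>
    ((l p.1, l p.2), (Nat.log 2 (uu p.1 p.2), Nat.log 2 (vv p.1 p.2))) with hcls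
  set Pr := (S ×ˢ S).filter fun p => p.1 ≠ p.2 ∧ etaP ψ p.1 p.2 < hi ∧
    ∃ n : ℤ, |(n : ℝ) + γ * (hh p.1 p.2 : ℝ)| < etaP ψ p.1 p.2 ∧ D0 A B p.1 p.2 n ≠ 0 with hPr
  have hsum : pairSum (mu ψ) (kerU γ ψ A B hi) S S
      = ∑ p ∈ Pr, mu ψ p.1 * mu ψ p.2 / etaP ψ p.1 p.2 := by
    rw [pairSum, hPr, Finset.sum_filter, Finset.sum_product]
    refine Finset.sum_congr rfl fun q _ => Finset.sum_congr rfl fun r' _ => ?_
    simp only [kerU]
    split_ifs <;> ring
  have hclass : ∀ z ∈ Pr.image cls, ∑ p ∈ Pr.filter (fun p => cls p = z),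
      mu ψ p.1 * mu ψ p.2 / etaP ψ p.1 p.2
      ≤ C2 * Real.exp (-σ * t) * (M + M ^ 2)
          * ((r ^ z.1.1 * r ^ z.1.2) * (r ^ z.2.1 * r ^ z.2.2)) := by
    intro z hz
    obtain ⟨⟨q0, r0⟩, hp0, rfl⟩ := mem_image.1 hz
    obtain ⟨hqr0, -, hηlt, n0, hn0, hn0D⟩ := mem_filter.1 hp0
    obtain ⟨hq0, hr0S⟩ := mem_product.1 hqr0
    simp only [hcls] at hηlt hn0 hn0D ⊢
    set lq := l q0
    set lr := l r0
    set u0 := uu q0 r0 with hu0
    set v0 := vv q0 r0 with hv0
    set a := Nat.log 2 u0 with ha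
    set b := Nat.log 2 v0 with hb
    have hup : 0 < u0 := uu_pos q0 r0 (hSp q0 hq0).1
    have hvp : 0 < v0 := vv_pos q0 r0 (hSp r0 hr0S).1
    obtain ⟨hηp, huv, hlow⟩ := etaP_bounds K t S ψ hS q0 r0 hq0 hr0S
    have hηe : etaP ψ q0 r0 = (v0 : ℝ) * ψ q0 + (u0 : ℝ) * ψ r0 := rfl
    have hψq0 := (hSp q0 hq0).2.1
    have hψr0 := (hSp r0 hr0S).2.1
    have hu_nn : 0 ≤ (u0 : ℝ) * ψ r0 := by positivity
    have hv_nn : 0 ≤ (v0 : ℝ) * ψ q0 := by positivity
    have hble : b ≤ lq + 1 := log_le_scale v0 lq (ψ q0) hvp (hl1 q0 hq0) (by linarith)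
    have hale : a ≤ lr + 1 := log_le_scale u0 lr (ψ r0) hup (hl1 r0 hr0S) (by linarith)
    set L := max a b with hLdef
    have hu2 : u0 < 2 ^ (L + 1) := (Nat.lt_pow_succ_log_self one_lt_two u0).trans_le
      (Nat.pow_le_pow_right two_pos (Nat.succ_le_succ (le_max_left a b)))
    have hv2 : v0 < 2 ^ (L + 1) := (Nat.lt_pow_succ_log_self one_lt_two v0).trans_le
      (Nat.pow_le_pow_right two_pos (Nat.succ_le_succ (le_max_right a b)))
    have hLuv : (2 : ℝ) ^ L ≤ (u0 : ℝ) + v0 := by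
      have h0u : (0 : ℝ) ≤ u0 := Nat.cast_nonneg _
      have h0v : (0 : ℝ) ≤ v0 := Nat.cast_nonneg _
      rcases max_choice a b with h | h <;> rw [hLdef, h]
      · have : ((2 : ℝ) ^ a) ≤ (u0 : ℝ) := by exact_mod_cast Nat.pow_log_le_self 2 hup.ne'
        linarith
      · have : ((2 : ℝ) ^ b) ≤ (v0 : ℝ) := by exact_mod_cast Nat.pow_log_le_self 2 hvp.ne'
        linarith
    have he2 : (u0 : ℝ) + v0 ≤ Real.exp (2 * t) := by
      refine huv.trans ((mul_le_mul (hηlt.le.trans hhi1) (Real.exp_le_exp.2 ?_) (Real.exp_pos _).le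
        zero_le_one).trans_eq (one_mul _))
      exact mul_le_mul_of_nonneg_right (by norm_num [zeta0]) (by linarith)
    have hh0 : hh q0 r0 = (v0 : ℤ) - u0 := rfl
    obtain ⟨hsp, hbig⟩ := sparse_cell (n := m + m) hAB (by linarith : 2 ≤ t) hu2 hv2 hLuv he2 hlow
      hηlt.le (k := n0) (by rw [hh0] at hn0; push_cast at hn0; exact hn0)
      (by simpa only [D0, hh0] using hn0D)
    set L0 := max lq lr with hL0
    have hLlow : (1 / 6 : ℝ) * (L0 : ℕ) + (-3) ≤ ((L : ℕ) : ℝ) := by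
      have h1 := Real.log_le_log (by positivity) hbig
      rw [Real.log_div (Real.exp_pos _).ne' (by norm_num), Real.log_exp, Real.log_pow,
        show (8 : ℝ) = 2 ^ 3 by norm_num, Real.log_pow] at h1
      push_cast at h1
      have h2 : (L0 : ℝ) * Real.log 2 ≤ (1 + zeta0) * t := by
        rcases max_choice lq lr with h | h <;> rw [hL0, h]
        · exact (hlrange q0 hq0).2
        · exact (hlrange r0 hr0S).2
      have h3 : (1 + zeta0) * t ≤ 2 * t :=
        mul_le_mul_of_nonneg_right (by norm_num [zeta0]) (by linarith)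
      refine le_of_mul_le_mul_right ?_ hl2log
      linarith
    set η0 : ℝ := (2 : ℝ) ^ b * (1 / 2) ^ (lq + 1) + (2 : ℝ) ^ a * (1 / 2) ^ (lr + 1) with hη0def
    have hη0pos : 0 < η0 := by positivity
    set R := ratioSet γ hi a b with hR
    set Sc := S.filter fun q => l q = lq with hSc
    set Sf := S.filter fun q => l q = lr with hSf
    set E' := pairSum (mu ψ) (fun q r' => if (uu q r', vv q r') ∈ R then 1 else 0) Sc Sf with hE'
    have hfib : ∑ p ∈ Pr.filter (fun p => cls p = ((lq, lr), (a, b))),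
        mu ψ p.1 * mu ψ p.2 / etaP ψ p.1 p.2 ≤ E' / η0 := by
      have e : E' = ∑ p ∈ (Sc ×ˢ Sf).filter (fun p => (uu p.1 p.2, vv p.1 p.2) ∈ R),
          mu ψ p.1 * mu ψ p.2 := by
        rw [hE', pairSum, ← Finset.sum_product', Finset.sum_filter]
        refine Finset.sum_congr rfl fun p _ => ?_
        split_ifs <;> ring
      rw [e, Finset.sum_div]
      refine (Finset.sum_le_sum fun p hp => ?_).trans
        (Finset.sum_le_sum_of_subset_of_nonneg ?_ fun p _ _ =>
          div_nonneg (mul_nonneg (hmu0 _) (hmu0 _)) hη0pos.le)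
      · obtain ⟨hp', hpc⟩ := mem_filter.1 hp
        obtain ⟨hpS, -⟩ := mem_filter.1 hp'
        obtain ⟨hpq, hpr⟩ := mem_product.1 hpS
        simp only [hcls, Prod.mk.injEq] at hpc
        obtain ⟨⟨e1, e2⟩, e3, e4⟩ := hpc
        refine div_le_div_of_nonneg_left (mul_nonneg (hmu0 _) (hmu0 _)) hη0pos ?_
        rw [hη0def, ← e1, ← e2, ← e3, ← e4]
        unfold etaP
        refine add_le_add (mul_le_mul ?_ (hl1 _ hpq).le (by positivity) (Nat.cast_nonneg _))
          (mul_le_mul ?_ (hl1 _ hpr).le (by positivity) (Nat.cast_nonneg _))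
        · exact_mod_cast Nat.pow_log_le_self 2 (vv_pos p.1 p.2 (hSp _ hpr).1).ne'
        · exact_mod_cast Nat.pow_log_le_self 2 (uu_pos p.1 p.2 (hSp _ hpq).1).ne'
      · intro p hp
        obtain ⟨hp', hpc⟩ := mem_filter.1 hp
        obtain ⟨hpS, -, hpt, n, hn, -⟩ := mem_filter.1 hp'
        obtain ⟨hpq, hpr⟩ := mem_product.1 hpS
        simp only [hcls, Prod.mk.injEq] at hpc
        obtain ⟨⟨e1, e2⟩, e3, e4⟩ := hpc
        have hu := uu_pos p.1 p.2 (hSp _ hpq).1
        have hv := vv_pos p.1 p.2 (hSp _ hpr).1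
        refine mem_filter.2 ⟨mem_product.2 ⟨mem_filter.2 ⟨hpq, e1⟩, mem_filter.2 ⟨hpr, e2⟩⟩, ?_⟩
        refine mem_filter.2 ⟨mem_product.2 ⟨mem_Ico.2 ?_, mem_Ico.2 ?_⟩, ?_, ?_⟩
        · exact ⟨e3 ▸ Nat.pow_log_le_self 2 hu.ne',
            e3 ▸ Nat.lt_pow_succ_log_self one_lt_two _⟩
        · exact ⟨e4 ▸ Nat.pow_log_le_self 2 hv.ne',
            e4 ▸ Nat.lt_pow_succ_log_self one_lt_two _⟩
        · exact Nat.coprime_div_gcd_div_gcd (Nat.gcd_pos_of_pos_left _ (hSp _ hpq).1)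
        · refine lt_of_le_of_lt (P028X.TopAux.distInt_le _ (-n)) (lt_trans ?_ hpt)
          refine lt_of_eq_of_lt ?_ hn
          congr 1
          simp [hh]
          ring
    refine hfib.trans ?_
    have hη0sq := eta_sq a b lq lr
    rw [← hη0def] at hη0sq
    have hwc := hCw γ hi a b hsp
    rw [show (1 - θ * (m : ℝ) / 4) = -κ by rw [hκdef]; ring] at hwc
    have hb' := class_bound (mu ψ) S R l lq lr a b j η0 M Cw κ (1 / 6) (-3) hmu0
      (fun q hq => ⟨(hSp q hq).1, (hmule q).trans (hl2 q hq)⟩) (ratioSet_pos γ hi a b) hM hη0pos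
      hη0sq hCw0 hwc (by linarith) (by linarith) hLlow
    refine hb'.trans ?_
    have hcnt : lq + lr + (a + b) ≤ 4 * max lq lr + 2 := by omega
    rw [← hm, ← hC1]
    have hdecay := class_decay (2 * m) lq lr a b (max lq lr) (by omega) hcnt
    rw [← hr] at hdecay
    push_cast at hdecay
    have hhalf : (2 : ℝ) ^ (-(((max lq lr : ℕ) : ℝ) / (2 * (2 * (m : ℝ)))))
        ≤ 2 * Real.exp (-σ * t) := by
      have h1 : t - 1 ≤ ((max lq lr : ℕ) : ℝ) :=
        (hlrange q0 hq0).1.trans (by exact_mod_cast le_max_left lq lr)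
      refine (Real.rpow_le_rpow_of_exponent_le one_le_two
        (show -(((max lq lr : ℕ) : ℝ) / (2 * (2 * (m : ℝ)))) ≤ 1 + -(t / (4 * m)) by
          have h2 := div_le_div_of_nonneg_right h1 (show (0 : ℝ) ≤ 2 * (2 * m) by positivity)
          have h3 : (1 : ℝ) / (2 * (2 * (m : ℝ))) ≤ 1 := (div_le_one (by positivity)).2 (by
            have : (1 : ℝ) ≤ m := by exact_mod_cast hm1
            linarith)
          rw [sub_div] at h2
          rw [show (4 : ℝ) * m = 2 * (2 * m) by ring]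
          linarith)).trans (le_of_eq ?_)
      rw [Real.rpow_add two_pos, Real.rpow_one, Real.rpow_def_of_pos two_pos, hσ]
      congr 2
      ring
    have hsplit : (2 : ℝ) ^ (-(((max lq lr : ℕ) : ℝ) / (2 * (m : ℝ))))
        = (2 : ℝ) ^ (-(((max lq lr : ℕ) : ℝ) / (2 * (2 * (m : ℝ)))))
          * (2 : ℝ) ^ (-(((max lq lr : ℕ) : ℝ) / (2 * (2 * (m : ℝ))))) := by
      rw [← Real.rpow_add two_pos]
      congr 1
      field_simp
      ring
    calc C1 ^ (((2 * m : ℕ) : ℝ)⁻¹) * (M + M ^ 2)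
          * (2 : ℝ) ^ (-(((max lq lr : ℕ) : ℝ) / (2 * m)))
        ≤ C1 ^ (((2 * m : ℕ) : ℝ)⁻¹) * (M + M ^ 2)
            * ((2 * ((r ^ lq * r ^ lr) * (r ^ a * r ^ b))) * (2 * Real.exp (-σ * t))) := by
          refine mul_le_mul_of_nonneg_left ?_
            (mul_nonneg (Real.rpow_nonneg hC10 _) (add_nonneg hM0 (sq_nonneg M)))
          rw [hsplit]
          exact mul_le_mul (by push_cast at hdecay ⊢; exact hdecay) hhalf (by positivity)
            (by positivity)
      _ = C2 * Real.exp (-σ * t) * (M + M ^ 2) * ((r ^ lq * r ^ lr) * (r ^ a * r ^ b)) := by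
          rw [hC2]; ring
  have hgeo : ∀ f : (ℕ × ℕ) × (ℕ × ℕ) → ℕ,
      ∑ x ∈ (Pr.image cls).image f, r ^ x ≤ 1 / (1 - r) := fun f =>
    (geom_finset_le hr0 hr1 _ 0 fun x _ => Nat.zero_le x).trans (by rw [pow_zero])
  have hgeo0 : ∀ f : (ℕ × ℕ) × (ℕ × ℕ) → ℕ, 0 ≤ ∑ x ∈ (Pr.image cls).image f, r ^ x :=
    fun f => Finset.sum_nonneg fun x _ => pow_nonneg hr0 x
  have hU : pairSum (mu ψ) (kerU γ ψ A B hi) S S
      ≤ C2 * Real.exp (-σ * t) * (M + M ^ 2) * (1 / (1 - r)) ^ 4 := by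
    rw [hsum, ← Finset.sum_fiberwise_of_maps_to (fun p hp => mem_image_of_mem cls hp)]
    refine (Finset.sum_le_sum hclass).trans ?_
    rw [← Finset.mul_sum]
    refine mul_le_mul_of_nonneg_left ?_ (by positivity)
    refine le_trans (Finset.sum_le_sum_of_subset_of_nonneg
      (t := (((Pr.image cls).image fun z => z.1.1) ×ˢ ((Pr.image cls).image fun z => z.1.2)) ×ˢ
        (((Pr.image cls).image fun z => z.2.1) ×ˢ ((Pr.image cls).image fun z => z.2.2)))
      ?_ fun z _ _ => by positivity) ?_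
    · intro z hz
      exact mem_product.2 ⟨mem_product.2 ⟨mem_image_of_mem (fun z => z.1.1) hz,
        mem_image_of_mem (fun z => z.1.2) hz⟩, mem_product.2
        ⟨mem_image_of_mem (fun z => z.2.1) hz, mem_image_of_mem (fun z => z.2.2) hz⟩⟩
    · rw [Finset.sum_product, Finset.sum_product]
      simp only [Finset.sum_product, ← Finset.mul_sum, ← Finset.sum_mul]
      have h1 := sub_pos.2 hr1
      calc _ ≤ (1 / (1 - r) * (1 / (1 - r))) * (1 / (1 - r) * (1 / (1 - r))) :=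
            mul_le_mul (mul_le_mul (hgeo _) (hgeo _) (hgeo0 _) (by positivity))
              (mul_le_mul (hgeo _) (hgeo _) (hgeo0 _) (by positivity))
              (mul_nonneg (hgeo0 _) (hgeo0 _)) (by positivity)
        _ = _ := by ring
  calc pairSum (mu ψ) (kernBand γ ψ A B 0 hi) S S
      ≤ pairSum (mu ψ) (fun q r' => Cd ^ 2 * Real.exp (5 * (σ / 5) * t) * kerU γ ψ A B hi q r')
          S S := pairSum_mono hmu0 fun q hq r' hr' => hkern K γ t ψ S A B q r' ht2 hψ hS hAB hq hr'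
    _ = Cd ^ 2 * Real.exp (σ * t) * pairSum (mu ψ) (kerU γ ψ A B hi) S S := by
        simp only [pairSum, Finset.mul_sum]
        rw [show 5 * (σ / 5) = σ by ring]
        exact Finset.sum_congr rfl fun q _ => Finset.sum_congr rfl fun r' _ => by ring
    _ ≤ Cd ^ 2 * Real.exp (σ * t) * (C2 * Real.exp (-σ * t) * (M + M ^ 2) * (1 / (1 - r)) ^ 4) :=
        mul_le_mul_of_nonneg_left hU (by positivity)
    _ = _ := by
        have e : Real.exp (σ * t) * Real.exp (-σ * t) = 1 := by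
          rw [← Real.exp_add]; simp
        linear_combination (Cd ^ 2 * C2 * (M + M ^ 2) * (1 / (1 - r)) ^ 4) * e

end Vale.Agent.P028U
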